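import Vale.Agent.P298.H379.Geo
import Vale.Agent.P298.H265.Conn
import Vale.Agent.P298.H217.Gen

/-!
P298, row S1-GEO-R6-B (helper412): families of smooth affine surfaces `f_t = s` of degree `d`
whose top form is a fixed diagonal form, the integrals `N_m(H)(t)`, and the statements which
connect the geometric half of the block S1 with its final form.
-/

namespace Vale.Agent.P298.H412

open Filter Topology Metric MeasureTheory Set Vale.Agent.P298 Vale.Agent.P298.H379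
open scoped ENNReal NNReal

/-- A family of smooth affine surfaces `∑ c_i x_i^d + (terms of degree < d) = s`, `t ∈ D`, the
coefficients of the lower terms being holomorphic in `t`. -/
structure SFam (d : ℕ) (D : Set ℂ) where
  /-- coefficients of the top form -/
  c : Fin 3 → ℂ
  /-- lower terms -/
  a : ℂ → Q d (d - 1)
  /-- the level -/
  s : ℂ
  hd : 5 ≤ d
  hD : IsOpen D
  hc : ∀ i, c i ≠ 0
  holo : DifferentiableOn ℂ a D
  smooth : ∀ t ∈ D, ∀ x : Fin 3 → ℂ, ∑ i, c i * x i ^ d + ev (a t) x = s →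
    ∃ i, pd i (fun x : Fin 3 → ℂ => ∑ i, c i * x i ^ d + ev (a t) x) x ≠ 0

variable {d : ℕ} {D : Set ℂ}

/-- the polynomial `f_t` -/
noncomputable def SFam.f (F : SFam d D) (t : ℂ) (x : Fin 3 → ℂ) : ℂ :=
  ∑ i, F.c i * x i ^ d + ev (F.a t) x

/-- the homogeneous equation of degree `d` of the projective surface; `z₀` is the new variable -/
noncomputable def SFam.G (F : SFam d D) (p : ℂ × (Fin 4 → ℂ)) : ℂ :=
  ∑ i : Fin 3, F.c i * p.2 i.succ ^ d +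
    ∑ α : Mon d (d - 1), F.a p.1 α * (p.2 0 ^ (d - (α.1 0 + α.1 1 + α.1 2 : ℕ)) *
      ∏ i : Fin 3, p.2 i.succ ^ (α.1 i : ℕ)) - F.s * p.2 0 ^ d

/-- `∫_{f_t = s} |H_t|^(2/m) |ω|²` for `H` homogeneous in the second variable -/
noncomputable def SFam.N (F : SFam d D) (m : ℕ) (H : ℂ × (Fin 4 → ℂ) → ℂ) (t : ℂ) : ℝ≥0∞ :=
  nu (F.f t) F.s (fun x => ‖H (t, Fin.cons 1 x)‖ₑ ^ (2 / (m : ℝ)))

/-- `H` is holomorphic over `D` and homogeneous of degree `n` in the second variable. -/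
structure HomFam (D : Set ℂ) (n : ℕ) (H : ℂ × (Fin 4 → ℂ) → ℂ) : Prop where
  an : AnalyticOnNhd ℂ H (D ×ˢ univ)
  hom : ∀ t ∈ D, ∀ (c : ℂ) (z : Fin 4 → ℂ), H (t, c • z) = c ^ n * H (t, z)

/-- The curve `G_t = H_t = 0` is smooth and reduced. -/
def GoodAt (G H : ℂ × (Fin 4 → ℂ) → ℂ) (t : ℂ) : Prop :=
  ∀ z : Fin 4 → ℂ, z ≠ 0 → G (t, z) = 0 → H (t, z) = 0 →
    ∃ v w, H217.Gen.dz H (t, z) v * H217.Gen.dz G (t, z) w ≠
      H217.Gen.dz H (t, z) w * H217.Gen.dz G (t, z) v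

/-- What the geometry of the cyclic coverings `y^m = H_t` gives: off a finite set `T` the integral
`N_m(H)(t)` is the square norm of a holomorphic section of the Hodge bundle, with bounded
`x` and `y`. -/
def GeoOut : Prop :=
  ∀ {d : ℕ} {D : Set ℂ} (F : SFam d D) (m : ℕ), 2 ≤ m →
    ∀ H : ℂ × (Fin 4 → ℂ) → ℂ, HomFam D (m * (d - 4)) H →
    ∀ T : Set ℂ, T.Finite → (∀ t ∈ D \ T, GoodAt F.G H t) →
    ∀ R : ℝ, 0 < R → closedBall 0 R ⊆ D →
    ∃ (K : ℝ) (x y : ℂ → ℝ), (∀ t ∈ ball (0 : ℂ) R \ T, x t ≤ K ∧ y t ≤ K) ∧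
      ∀ t ∈ ball (0 : ℂ) R \ T, H265.HasConn (fun t => (F.N m H t).toReal) x y t

/-- The final form of the three-circles estimate `(R)`, exponents `m = 1, 2, 3, …`. -/
def S1AllR : Prop :=
  ∀ {d : ℕ} {D : Set ℂ} (F : SFam d D) (m : ℕ), 1 ≤ m →
    ∀ H : ℂ × (Fin 4 → ℂ) → ℂ, HomFam D (m * (d - 4)) H →
    ∀ (t₀ : ℂ) (r : ℝ), 0 < r → closedBall t₀ r ⊆ D → ∀ Λ : ℝ≥0∞,
      (∀ t : ℂ, r / 11 ≤ dist t t₀ → dist t t₀ ≤ r → F.N m H t ≤ Λ) →
        ∀ t ∈ closedBall t₀ r, F.N m H t ≤ 2 * Λ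

/-- The final form of the mean value estimate `(P2)`, exponents `m = 1, 2, 3, …`. -/
def S1AllP2 : Prop :=
  ∀ {d : ℕ} {D : Set ℂ} (F : SFam d D) (m : ℕ), 1 ≤ m →
    ∀ H : ℂ × (Fin 4 → ℂ) → ℂ, HomFam D (m * (d - 4)) H →
    ∀ (t₀ : ℂ) (r : ℝ), 0 < r → ball t₀ r ⊆ D →
      ENNReal.ofReal (r ^ 2) * F.N m H t₀ ≤ 8000 * ∫⁻ t in ball t₀ r, F.N m H t

end Vale.Agent.P298.H412
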